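import Vale.Agent.P323S.Main

/-!
ZF does not prove that the Partition Principle implies the Axiom of Choice: the statement for
formal proofs.
-/

open Vale.Agent.P323.Z Vale.Agent.P323.Z.Fml Vale.Agent.P129B.Syn Vale.Agent.P323S

theorem Vale.Agent.Results.P323.AASyntactic.result :
    ¬ Prf ZF [] (imp ppF acF) ∧
    Con (ZF ∪ {ppF, neg acF}) ∧
    (Con ZF → Con (ZF ∪ {ppF, neg acF})) ∧
    (∃ (M : Type) (E : M → M → Prop), IsZFModel E ∧ PP E ∧ ¬ AC E) ∧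
    (∀ (M : Type) (E : M → M → Prop),
      ((∀ ψ ∈ ZF, ψ.Sat E Fin.elim0) ↔ IsZFModel E) ∧
      (ppF.Sat E Fin.elim0 ↔ PP E) ∧ (acF.Sat E Fin.elim0 ↔ AC E)) ∧
    ∀ (T : Set (Fml 0)) (φ : Fml 0), Prf T [] φ ↔
      ∀ (M : Type) (E : M → M → Prop), Nonempty M → (∀ ψ ∈ T, ψ.Sat E Fin.elim0) →
        φ.Sat E Fin.elim0 :=
  ⟨not_prf, con_pp, fun _ => con_pp, exists_model_pp_not_ac,
    fun _ E => ⟨(isZFModel_iff E).symm, sat_ppF E _, sat_acF E _⟩, prf_iff⟩
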